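import Vale.Agent.P366C.All
import Vale.Agent.P366C.ExQuat
import Vale.Agent.P366C.ExCliff

namespace Vale.Agent.Results.P366.CohomOne

open Vale.Agent.P366 Vale.Agent.P366C

theorem result :
    ((∀ m : ℕ, ∃ J : Fin 3 → Matrix (Fin (4 * m)) (Fin (4 * m)) ℝ, IsQuat J) ∧
      ∀ (n : ℕ) (J : Fin 3 → Matrix (Fin n) (Fin n) ℝ), 4 < n → IsQuat J →
        PenroseFor (spGroup J)) ∧
    ((∃ S : Fin 9 → Matrix (Fin 16) (Fin 16) ℝ, P366N.IsCliff S) ∧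
      ∀ S : Fin 9 → Matrix (Fin 16) (Fin 16) ℝ, P366N.IsCliff S → PenroseFor (spinGroup S)) :=
  ⟨⟨exQuat_pf, fun n J hn hJ => penrose_sp n hn J hJ⟩, exCliff_pf, penrose_spin⟩

end Vale.Agent.Results.P366.CohomOne
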