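import Vale.Agent.P366.Main
import Vale.Agent.P366.Ode
import Vale.Agent.P366.Mono
import Vale.Agent.P366.MonoAlg
import Vale.Agent.P366.Cont
import Vale.Agent.P366.Lim
import Vale.Agent.P366.EvPos
import Vale.Agent.P366.Scal
import Vale.Agent.P366.GenR
import Vale.Agent.P366.Jet
import Vale.Agent.P366.Chr
import Vale.Agent.P366.VW
import Vale.Agent.P366.Q
import Vale.Agent.P366.KH
import Vale.Agent.P366.GxDiv
import Vale.Agent.P366.Cur
import Vale.Agent.P366.Det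
import Vale.Agent.P366.Flux
import Vale.Agent.P366.Sph
import Vale.Agent.P366.Decay

namespace Vale.Agent.Results.P366.HopfQuat

open Vale.Agent.P366 Filter
open scoped ContDiff Topology

theorem result (n : ℕ) (hn : 4 < n) (J : Fin 3 → Matrix (Fin n) (Fin n) ℝ) (hJ : IsQuat J)
    (A B C a b c : ℝ → ℝ) (hA : ContDiff ℝ ∞ A) (hB : ContDiff ℝ ∞ B) (hC : ContDiff ℝ ∞ C)
    (ha : ContDiff ℝ ∞ a) (hb : ContDiff ℝ ∞ b) (hc : ContDiff ℝ ∞ c)
    (g K : Ten n) (hg : g = hopf J A B C) (hK : K = hopf J a b c)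
    (R τ : ℝ) (hR : 0 < R) (hτ : ((n : ℝ) - 2) / 2 < τ)
    (hpos : ∀ t, R ^ 2 ≤ t → 0 < A t ∧ 0 < B t ∧ 0 < C t)
    (hdecay : Decay g K R τ)
    (hDEC : ∀ x, R ≤ rad x → curNorm g K x ≤ mu g K x)
    (htrap : ∀ x, rad x = R → meanCurv g x + trS g K x ≤ 0)
    (E : ℝ) (P : Pt n) (hE : Tendsto (energyFlux g) atTop (𝓝 E))
    (hP : ∀ i, Tendsto (momFlux g K i) atTop (𝓝 (P i))) :
    rad P ≤ E ∧ ∃ r, R ≤ r ∧
      1 / 2 * (area g r / omega n) ^ (((n : ℝ) - 2) / ((n : ℝ) - 1)) ≤ √(E ^ 2 - rad P ^ 2) := by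
  subst hg hK
  exact main_of (ode_pf (mono_pf monoAlg_pf) cont_pf lim_pf evPos_pf)
    (scal_pf genR_pf smooth_pf rad_pf (chr_pf jet_pf) v_pf w_pf q_pf) k_pf
    (h_pf (chr_pf jet_pf) v_pf gx_pf) (cur_pf jet_pf k_pf (chr_pf jet_pf) v_pf gx_pf div_pf) cs_pf
    (flux_pf sph_pf jet_pf k_pf div_pf det_pf) (decay_pf jet_pf div_pf)
    n hn J hJ ⟨A, B, C, a, b, c, hA, hB, hC, ha, hb, hc⟩ R τ hR hτ hpos hdecay hDEC htrap E P hE hP

end Vale.Agent.Results.P366.HopfQuat
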